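import Crest.Agent.X212.Dec47.Bas
import Crest.Agent.X212.Cyl58.PsC

/-!
# Row 212, SW-DEC (helper47): abstract and linear tools for the slice estimate
-/

set_option autoImplicit false
set_option linter.unusedSectionVars false
noncomputable section
open scoped Manifold ContDiff Topology InnerProductSpace
open MeasureTheory Set Function Filter Module Asymptotics

namespace Crest.Agent.X212.Dec47
open An An.Pre Sw Sob92 Ell97 Rdc90 Cyl58
open Wz78 (SA nab_zero)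

section abs
variable {J X Y Z : Type} [NormedAddCommGroup X] [NormedSpace ℝ X] [NormedAddCommGroup Y]
  [NormedSpace ℝ Y] [NormedAddCommGroup Z] [NormedSpace ℝ Z] {l : Filter J}

theorem est_O {L : X →L[ℝ] Y} {K : X →L[ℝ] Z} {C : ℝ} (e : Fred93.Est L K C) {x : J → X}
    {g : J → ℝ} (h : (fun i => L (x i)) =O[l] g) (k : (fun i => K (x i)) =O[l] g) : x =O[l] g :=
  (IsBigO.of_bound |C| (.of_forall fun i => (e (x i)).trans
    ((le_abs_self _).trans_eq (abs_mul _ _)))).trans (h.norm_left.add k.norm_left)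

theorem gap_abs {G : X → Y} {G' : X →L[ℝ] Y} {z : X} (h : HasFDerivAt G G' z) (h0 : G z = 0)
    {c : ℝ} (hc : 0 < c) : ∃ δ > 0, ∃ C ≥ 0, ∀ x, ‖x‖ ≤ δ →
      ‖G (z + x)‖ ≤ C * ‖x‖ ∧ (‖x‖ ≤ c * ‖G' x‖ → ‖x‖ ≤ C * ‖G (z + x)‖) := by
  obtain ⟨δ, hδ, k⟩ := Metric.eventually_nhds_iff.1
    ((hasFDerivAt_iff_isLittleO_nhds_zero.1 h).def (c := 1 / (2 * c)) (by positivity))
  refine ⟨δ / 2, by positivity, ‖G'‖ + 1 / (2 * c) + 2 * c, by positivity, fun x hx => ?_⟩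
  have a := k (y := x) (by rw [dist_zero_right]; linarith)
  rw [h0, sub_zero] at a
  have b := abs_le.1 ((abs_norm_sub_norm_le _ _).trans a)
  have d := G'.le_opNorm x
  have n := norm_nonneg x
  have m := norm_nonneg (G (z + x))
  refine ⟨by nlinarith, fun e => ?_⟩
  have f := mul_le_mul_of_nonneg_left b.1 hc.le
  have : c * -(1 / (2 * c) * ‖x‖) = -‖x‖ / 2 := by field_simp
  nlinarith [mul_nonneg (show 0 ≤ ‖G'‖ + 1 / (2 * c) by positivity) m]

theorem abs_arctan (x : ℝ) : |Real.arctan x| ≤ |x| := by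
  have h : ∀ y : ℝ, 0 ≤ y → |Real.arctan y| ≤ |y| := fun y hy => by
    rw [abs_of_nonneg hy, abs_of_nonneg (Real.arctan_nonneg.2 hy)]
    exact (Real.le_tan (Real.arctan_nonneg.2 hy) (Real.arctan_lt_pi_div_two y)).trans_eq
      (Real.tan_arctan y)
  rcases le_total 0 x with k | k
  exacts [h x k, by simpa using h (-x) (neg_nonneg.2 k)]

theorem phase {X : Type} [NormedAddCommGroup X] [InnerProductSpace ℝ X] {a b : X} (ha : a ≠ 0)
    (hb : ⟪b, a⟫_ℝ = 0) : ∃ δ > 0, ∃ K ≥ 0, ∀ x, ‖x - a‖ ≤ δ → ∃ c : ℝ, |c| ≤ K * ‖x - a‖ ∧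
      Real.cos c * ⟪b, x⟫_ℝ + Real.sin c * ⟪a, x⟫_ℝ = 0 := by
  have n := norm_pos_iff.2 ha
  refine ⟨‖a‖ / 2, by positivity, ‖b‖ / (‖a‖ ^ 2 / 2), by positivity, fun x hx =>
    ⟨Real.arctan (-⟪b, x⟫_ℝ / ⟪a, x⟫_ℝ), ?_⟩⟩
  have h1 := abs_real_inner_le_norm b (x - a)
  have h2 := (abs_le.1 (abs_real_inner_le_norm a (x - a))).1
  rw [inner_sub_right, hb, sub_zero] at h1
  rw [inner_sub_right, real_inner_self_eq_norm_sq] at h2
  have p : ‖a‖ ^ 2 / 2 ≤ ⟪a, x⟫_ℝ := by nlinarith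
  have p0 : 0 < ⟪a, x⟫_ℝ := lt_of_lt_of_le (by positivity) p
  refine ⟨(abs_arctan _).trans ?_, ?_⟩
  · rw [abs_div, abs_neg, abs_of_pos p0, div_mul_eq_mul_div]
    gcongr
  · rw [Real.sin_arctan, Real.cos_arctan]
    field_simp
    ring

end abs

variable {E : Type} [NormedAddCommGroup E] [NormedSpace ℝ E] [FiniteDimensional ℝ E]
  [MeasurableSpace E] [BorelSpace E]
  {HM : Type} [TopologicalSpace HM] {I : ModelWithCorners ℝ E HM} [I.Boundaryless]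
  {M : Type} [TopologicalSpace M] [ChartedSpace HM M] [IsManifold I ∞ M]
  [MeasurableSpace M] {ι : Type} [Fintype ι]
  {U V W : Type} [NormedAddCommGroup U] [InnerProductSpace ℝ U] [FiniteDimensional ℝ U]
  [NormedAddCommGroup V] [InnerProductSpace ℝ V] [FiniteDimensional ℝ V]
  [NormedAddCommGroup W] [InnerProductSpace ℝ W] [FiniteDimensional ℝ W]
  [T2Space M] [BorelSpace M] [SecondCountableTopology M] [CompactSpace M]
  {F : Fr I M ι} {p : M → V →L[ℝ] V} {q : M → W →L[ℝ] W} {C C₁ C₂ : ℕ → ℝ}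

theorem bil_l (hn : finrank ℝ E ≤ 3) {β : M → V →L[ℝ] W →L[ℝ] U} (hβ : Sm I β) (u : Sec I p)
    (y : F.H 1 q) : F.bilH 1 1 p q (triv M U) 0 β (F.toH 1 p u) y =
      F.mulH 0 q (triv M U) (fun x => β x (u.1 x)) (F.incl 1 0 q y) := by
  induction y using H_ind with
  | hP => exact isClosed_eq (by fun_prop) (by fun_prop)
  | h v => rw [bil3_toH hn (by simp [Lv]) hβ, incl_toH zero_le_one,
      mulH_toH (hβ.clm_apply u.2.1)]

theorem sm_flip {β : M → V →L[ℝ] W →L[ℝ] U} (hβ : Sm I β) : Sm I fun x => (β x).flip :=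
  let L : (V →L[ℝ] W →L[ℝ] U) →L[ℝ] W →L[ℝ] V →L[ℝ] U :=
    (ContinuousLinearMap.flipₗᵢ ℝ V W U).toContinuousLinearEquiv.toContinuousLinearMap
  fun x => SA.clm (W := W →L[ℝ] V →L[ℝ] U) L (hβ x)

theorem bil_r (hn : finrank ℝ E ≤ 3) {β : M → V →L[ℝ] W →L[ℝ] U} (hβ : Sm I β) (u : Sec I q)
    (y : F.H 1 p) : F.bilH 1 1 p q (triv M U) 0 β y (F.toH 1 q u) =
      F.mulH 0 p (triv M U) (fun x => (β x).flip (u.1 x)) (F.incl 1 0 p y) := by
  induction y using H_ind with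
  | hP => exact isClosed_eq (by fun_prop) (by fun_prop)
  | h v => rw [bil3_toH hn (by simp [Lv]) hβ, incl_toH zero_le_one,
      mulH_toH ((sm_flip hβ).clm_apply u.2.1)]; rfl

theorem hd_app {A : Op M ι V W} {u v : M → V} (hu : Sm I u) (hv : Sm I v) (x : M) :
    HasDerivAt (fun r : ℝ => A.app F (u + r • v) x) (A.app F v x) 0 := by
  have e : ∀ r : ℝ, A.app F (u + r • v) x = A.app F u x + r • A.app F v x := fun r => by
    rw [app_add (v := r • v) hu ((contMDiff_const (I' := 𝓘(ℝ, ℝ)) (c := r)).smul hv)]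
    simp only [Op.app, Pre.op, F.D_smul hv, Pi.smul_apply, map_smul, ← Finset.smul_sum, smul_add]
  simpa only [e, one_smul, id] using ((hasDerivAt_id (0 : ℝ)).smul_const _).const_add _

/-- regularity for a coupled system -/
theorem lin_reg {W' : Type} [NormedAddCommGroup W'] [InnerProductSpace ℝ W'] [FiniteDimensional ℝ W']
    {σ₁ : ι → M → V →L[ℝ] U} {B₁ : M → V →L[ℝ] U} {σ₂ : ι → M → W →L[ℝ] W'}
    {B₂ : M → W →L[ℝ] W'} (hF : F.Tame C) (g1 : (Ot p σ₁ B₁).Good F C₁) (c1 : (Ot p σ₁ B₁).CliffL F)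
    (g2 : (Ot q σ₂ B₂).Good F C₂) (c2 : (Ot q σ₂ B₂).CliffL F) {x : F.H 1 p} {y : F.H 1 q}
    (e : ∀ k (x' : F.H (k + 1) p) (y' : F.H (k + 1) q), F.incl _ 1 p x' = x → F.incl _ 1 q y' = y →
      (∃ w, (Ot p σ₁ B₁).H F 0 x = F.incl (k + 1) 0 _ w) ∧
        ∃ w, (Ot q σ₂ B₂).H F 0 y = F.incl (k + 1) 0 _ w) :
    (∃ a, F.toH 1 p a = x) ∧ ∃ b, F.toH 1 q b = y := by
  have h : ∀ k, ∃ (x' : F.H (k + 1) p) (y' : F.H (k + 1) q),
      F.incl _ 1 p x' = x ∧ F.incl _ 1 q y' = y := fun k => by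
    induction k with
    | zero => exact ⟨x, y, incl_self x, incl_self y⟩
    | succ k ih =>
      obtain ⟨x', y', hx, hy⟩ := ih
      obtain ⟨⟨w, e1⟩, w', e2⟩ := e k x' y' hx hy
      obtain ⟨x'', h1, -⟩ := reg_up hF g1 c1 (k + 1).zero_le e1
      obtain ⟨y'', h2, -⟩ := reg_up hF g2 c2 (k + 1).zero_le e2
      exact ⟨x'', y'', h1, h2⟩
  refine ⟨sec_of_all hF fun j hj => ?_, sec_of_all hF fun j hj => ?_⟩ <;>
    obtain ⟨x', y', h1, h2⟩ := h j
  exacts [⟨F.incl _ _ _ x', (incl_incl (by omega) hj _).trans h1⟩,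
    ⟨F.incl _ _ _ y', (incl_incl (by omega) hj _).trans h2⟩]

/-- Hodge decomposition with a bound -/
theorem hodge_bd {A : Op M ι V W} (hF : F.Tame C) (hA : A.Good F C₁) (hc : A.CliffL F) :
    ∃ K ≥ 0, ∀ w : Sec I A.q, ∃ x : Sec I A.p, (A.adj F).app F (w - LS hA x).1 = 0 ∧
      F.nrm 2 x.1 ≤ K * F.nrm 1 w.1 ∧ F.nrm 1 (w - LS hA x).1 ≤ K * F.nrm 1 w.1 := by
  obtain ⟨C'', hA'⟩ := good_adj hF hA
  have : CompleteSpace ((Hs F A 0).comp (A.H F 1)).range :=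
    (fr_LL hF hA hc 0).1.isClosed_range.completeSpace_coe
  obtain ⟨K, h0, hK⟩ := ((Hs F A 0).comp (A.H F 1)).rangeRestrict.exists_preimage_norm_le
    fun ⟨_, x, hx⟩ => ⟨x, Subtype.ext hx⟩
  refine ⟨(1 + ‖A.H F 1‖) * (1 + K * ‖Hs F A 0‖), by positivity, fun w => ?_⟩
  obtain ⟨x₀, e0⟩ := hodge_sm hF hA hc w
  obtain ⟨z, h1, h2⟩ := hK ⟨_, F.toH _ _ x₀, rfl⟩
  have h3 : (hlf hF hA hc).LL 0 (F.toH _ _ x₀ - z) = 0 :=
    (map_sub ..).trans (sub_eq_zero.2 (congrArg Subtype.val h1).symm)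
  obtain ⟨h, e1, -⟩ := sec_of_eq hF hA hc (k := 1) (w := 0)
    (((hlf hF hA hc).LL_eq_zero.1 h3).trans (map_zero _).symm)
  have e2 : F.toH 2 _ (x₀ - h) = z := by rw [map_sub, e1, sub_sub_cancel]
  have e3 : LS hA (x₀ - h) = LS hA x₀ := toH_inj F 1 _ (by
    rw [← H_toH hA, ← H_toH hA, e2, eq_comm, ← sub_eq_zero, ← map_sub]
    exact (hlf hF hA hc).LL_eq_zero.1 h3)
  have e4 : Hs F A 0 (F.toH 1 _ (w - LS hA x₀)) = 0 := (H_toH hA' 0 _).trans
    ((congrArg _ (Subtype.ext e0)).trans (map_zero _))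
  rw [map_sub, map_sub, sub_eq_zero, ← H_toH hA] at e4
  have h4 : ‖z‖ ≤ K * (‖Hs F A 0‖ * F.nrm 1 w.1) := h2.trans (mul_le_mul_of_nonneg_left
    ((congrArg norm e4).symm.trans_le (((Hs F A 0).le_opNorm _).trans_eq (by rw [norm_toH]))) h0.le)
  have n := nrm_nonneg (F := F.toPre) 1 w.1
  have a := norm_nonneg (A.H F 1)
  have b := mul_nonneg h0.le (mul_nonneg (norm_nonneg (Hs F A 0)) n)
  refine ⟨x₀ - h, e3 ▸ e0, ?_, ?_⟩
  · rw [← norm_toH, e2]; nlinarith [mul_nonneg a n, mul_nonneg a b]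
  · rw [← norm_toH, map_sub, ← H_toH hA, e2]
    refine (norm_sub_le _ _).trans ?_
    rw [norm_toH]
    nlinarith [(A.H F 1).le_opNorm z, mul_nonneg a n, mul_le_mul_of_nonneg_left h4 a]

/-- Coulomb gauge with a bound -/
theorem coul_bd (hF : F.Tame C) : ∃ K ≥ 0, ∀ a : Sec I (P1 F), ∃ (χ : M → ℝ) (h : Sm I χ),
    (∀ x, dvS F (a - dS F h).1 x = 0) ∧ F.nrm 2 χ ≤ K * F.nrm 1 a.1 ∧
      F.nrm 1 (a - dS F h).1 ≤ K * F.nrm 1 a.1 := by
  obtain ⟨C', hA⟩ := (hq F).good0 hF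
  obtain ⟨K, h0, hK⟩ := hodge_bd hF hA (hq F).cliff0
  refine ⟨K, h0, fun a => ?_⟩
  obtain ⟨χ, h, h1, h2⟩ := hK a
  have e : LS hA χ = dS F χ.2.1 := Subtype.ext (funext fun x =>
    ((hq F).app0 χ.2.1 (fun _ => rfl) x).trans (by
      simp only [nab_zero]; exact (dS F χ.2.1).2.2.2 x))
  refine ⟨_, χ.2.1, fun x => ?_, h1, e ▸ h2⟩
  have := ((hq F).adj0 hF (fun _ _ _ _ _ => rfl) (a - dS F χ.2.1) x).symm.trans
    (congrFun (e ▸ h) x)
  simp only [dv1, nab_zero, Pi.zero_apply, neg_eq_zero] at this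
  exact this

/-- exact and coclosed forms vanish -/
theorem coex {χ : M → ℝ} (h : Sm I χ) (hd : ∀ x, dvS F (dS F h).1 x = 0) (k : ι) (x : M) :
    F.D k χ x = 0 := by
  have h2 := Wz78.integral_dvg (F := F) (f := fun b y => χ y * F.D b χ y)
    (fun b y => SA.mul (h y) (F.sm_D h b y)) fun _ => hcs
  have h3 : Wz78.dvg I F.e F.dv (fun b y => χ y * F.D b χ y) =
      fun x => ⟪(dS F h).1 x, (dS F h).1 x⟫_ℝ := funext fun x => by
    have := congrArg (χ x * ·) (hd x)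
    simp only [Wz78.dvg, fun b => Wz78.dv_mul (e := F.e b) (h x) (F.sm_D h b x)]
    simp only [dS, sec1, PiLp.inner_apply, dvS, Finset.mul_sum, Finset.sum_add_distrib, mul_add,
      Pre.D_def, mul_zero, mul_left_comm (χ x), real_inner_self_eq_norm_sq, Real.norm_eq_abs, sq,
      abs_mul_abs_self] at this ⊢
    linarith
  rw [h3] at h2
  have : F.toH 0 _ (dS F h) = 0 := by rw [← inner_self_eq_zero (𝕜 := ℝ), inner_toH]; exact h2
  exact congrArg (·.1 x k) (toH_inj F 0 _ (this.trans (map_zero _).symm))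

theorem nrm_lp (F : Pre I M ι) (α : Type) [Fintype α] (k : ℕ) : ∃ K ≥ 0, ∀ (f : α → M → ℝ) (η : ℝ),
    (∀ i, Sm I (f i)) → (∀ i, F.CB k (f i) η) →
      F.nrm k (fun x => (WithLp.toLp 2 fun i => f i x : Fm α ℝ)) ≤ K * |η| := by
  classical
  obtain ⟨K, h0, hK⟩ := ncb F k ℝ
  refine ⟨∑ i : α, ‖Map77.ij ℝ i‖ * K, by positivity, fun f η s h => ?_⟩
  rw [show (fun x => (WithLp.toLp 2 fun i => f i x : Fm α ℝ)) = fun x => ∑ i, Map77.ij ℝ i (f i x)
    from funext fun x => Map77.fm_ext fun i => by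
      simp [Map77.ij, DFunLike.ite_apply], Finset.sum_mul]
  refine (nrm_sum_le _ k (fun i _ => (Map77.ij ℝ i).contMDiff.comp (s i)) fun _ _ => hcs).trans
    (Finset.sum_le_sum fun i _ => (nrm_clm F k _ (s i)).trans ?_)
  rw [mul_assoc]
  exact mul_le_mul_of_nonneg_left (hK _ _ (s i) (h i)) (norm_nonneg _)

theorem nrm_ei (F : Pre I M ι) {θ : M → ℝ} (h : Sm I θ) :
    F.nrm 1 (fun x => ei θ x - 1) ≤ (1 + Fintype.card ι) * F.nrm 1 θ := by
  refine (nrm_succ_le F 0 _).trans ?_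
  rw [add_mul, ← nsmul_eq_mul, ← Finset.card_univ]
  refine add_le_add ((nrm0_le F h.continuous zero_le_one fun x => ?_).trans
    (mul_le_mul_of_nonneg_left (nrm_mono zero_le_one θ) zero_le_one))
    (Finset.sum_le_card_nsmul _ _ _ fun a _ => ((nrm0_le F (F.sm_D h a).continuous zero_le_one
      fun x => ?_).trans_eq (one_mul _)).trans (nrm_D_le 0 θ a))
  · rw [one_mul, ei, mul_comm]; exact Real.norm_exp_I_mul_ofReal_sub_one_le
  · have := Wz78.dv_sub' (e := F.e a) ((gau_ei h).1 x) (contMDiffAt_const (c := (1 : ℂ)))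
    rw [dv_const, Pi.zero_apply, sub_zero, ← Pre.D_def, ← Pre.D_def, D_ei F (h x)] at this
    rw [this, norm_smul, norm_mul, norm_ei]
    simp

end Crest.Agent.X212.Dec47
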