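import Crest.Agent.X212.Dec47.Lin

/-!
# Row 212, SW-DEC (helper47): GAP and LOJ
-/

set_option autoImplicit false
set_option linter.unusedSectionVars false
noncomputable section
open scoped Manifold ContDiff Topology InnerProductSpace
open MeasureTheory Set Function Filter Module Asymptotics

namespace Crest.Agent.X212.Dec47
open An An.Pre Sw Sw.En3 Sob92 Ell97 Rdc90 Cyl58 Cyf70
open Wz78 (SA)

variable {κ lam ν : Type} [Fintype κ] [Fintype lam] [Fintype ν] [DecidableEq ν]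
  {e : En3 κ lam ν} {u v v' : e.YC} {θ : e.Y.M → ℝ}

theorem sa_ay (H : e.OK) (hv : e.cyl.Adm (fz v)) (hθ : Sm e.Y.I θ) :
    sa (adm_ay H hv (gau_ei hθ)) = sa hv - dS e.D.F hθ :=
  Subtype.ext (funext fun y => PiLp.ext fun k => (ay_a (gau_ei hθ).1 v k y).trans
    (congrArg (_ - ·) (th_ei _ (hθ y) k)))

theorem spin_bd (hv : e.cyl.Adm (fz v)) : ∃ K ≥ 0, ∀ (v' : e.YC) θ η,
    e.cyl.Adm (fz v') → Sm e.Y.I θ → η ≤ 1 → Cy v' v 1 η →
      e.D.F.nrm 1 ((ay (ei θ) v').Φ - v.Φ) ≤ K * (η + e.D.F.nrm 1 θ) := by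
  obtain ⟨C, -, hC⟩ := Cb_of_compact (F := e.D.F.toPre) (smΦ hv)
  obtain ⟨K, h0, hK⟩ := ncb e.D.F.toPre 1 (Eu ν)
  have k := cK_nonneg (ι := κ) 1
  refine ⟨cK κ 1 * ‖(csL e.m.J).flip‖ * |1 + C 1| * (1 + Fintype.card κ) + K, by positivity,
    fun v' θ η hv' hθ h1 h => ?_⟩
  have s : Sm e.Y.I fun y => ei θ y - 1 := (gau_ei hθ).1.sub contMDiff_const
  have s' : Sm e.Y.I (v'.Φ - v.Φ) := (smΦ hv').sub (smΦ hv)
  have a0 := CB_add s' (smΦ hv) (CB_mono h.2 h1) (hC 1)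
  rw [sub_add_cancel] at a0
  have a := nmul (csL e.m.J).flip (smΦ hv') s a0
  have b := hK _ _ s' h.2
  rw [show (ay (ei θ) v').Φ - v.Φ = fun y => (csL e.m.J).flip (v'.Φ y) (ei θ y - 1) +
    (v'.Φ - v.Φ) y from funext fun y => by simp [ay_Φ, csL, cs]; module]
  refine (nadd (((csL e.m.J).flip.contMDiff.comp (smΦ hv')).clm_apply s) s').trans
    ((add_le_add a le_rfl).trans ?_)
  rw [abs_of_nonneg h.nn] at b
  have c := mul_le_mul_of_nonneg_left (nrm_ei e.D.F.toPre hθ)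
    (show 0 ≤ cK κ 1 * ‖(csL e.m.J).flip‖ * |1 + C 1| by positivity)
  have d := mul_nonneg h0 (nrm_nonneg (F := e.D.F.toPre) 1 θ)
  have f := mul_nonneg (show 0 ≤ cK κ 1 * ‖(csL e.m.J).flip‖ * |1 + C 1| * (1 + Fintype.card κ) by
    positivity) h.nn
  linarith

/-- gauge fixing -/
theorem fix (h : Gv v) : ∃ η₀ > 0, ∃ K ≥ 0, ∀ v' η (hv' : e.cyl.Adm (fz v')), η ≤ η₀ →
    Cy v' v 1 η → ∃ θ, ∃ hθ : Sm e.Y.I θ, ∀ x, x = zH (adm_ay h.ok hv' (gau_ei hθ)) - zH h.crit.1 →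
      Co v (ay (ei θ) v') ∧ dvH e x.1 = 0 ∧ lH h.crit.1 x.2 = 0 ∧ ‖x‖ ≤ K * η := by
  have H := h.ok
  have hv := h.crit.1
  obtain ⟨C₀, hF⟩ := tame3 e
  obtain ⟨K₁, p1, h1⟩ := coul_bd hF
  obtain ⟨K₂, p2, h2⟩ := nrm_lp e.D.F.toPre κ 1
  obtain ⟨K₃, p3, h3⟩ := spin_bd hv
  have jj : ∀ {u : e.YC} (hu : e.cyl.Adm (fz u)), ⟪e.D.F.toH 0 _ (jS hv), e.D.F.toH 0 _ (jS hu)⟫_ℝ =
      ⟪e.D.F.toH 0 _ (sT (smΦ hv)), e.D.F.toH 0 _ (sT (smΦ hu))⟫_ℝ := fun hu => by
    rw [inner_toH, inner_toH]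
    exact integral_congr_ae (.of_forall fun y => (H.cyl.m.Jsk _ _).trans
      ((congrArg (-⟪_, ·⟫_ℝ) (JJ H.cyl _)).trans (by simp)))
  have ba : ⟪e.D.F.toH 0 _ (jS hv), e.D.F.toH 0 _ (sT (smΦ hv))⟫_ℝ = 0 := by
    rw [inner_toH]
    refine (integral_congr_ae (.of_forall fun y => ?_)).trans (integral_zero _ _)
    have := H.cyl.m.Jsk (v.Φ y) (v.Φ y)
    rw [real_inner_comm (e.cyl.m.J _)] at this
    exact self_eq_neg.1 this
  obtain ⟨δ, hδ, K₄, p4, h4⟩ := phase (a := e.D.F.toH 0 _ (sT (smΦ hv))) (fun k => jS_ne h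
    (inner_self_eq_zero.1 ((jj hv).trans (by rw [k, inner_zero_left])))) ba
  have pN := nrm_nonneg (F := e.D.F.toPre) 1 fun _ => (1 : ℝ)
  set N := e.D.F.nrm 1 fun _ => (1 : ℝ) with hN
  refine ⟨min 1 (δ / (K₃ * (1 + K₁ * K₂) + 1)), by positivity, K₁ * K₂ +
    K₃ * (1 + K₁ * K₂ + K₄ * (K₃ * (1 + K₁ * K₂)) * N), by positivity, fun v' η hv' hη hc => ?_⟩
  have η0 := hc.nn
  obtain ⟨χ, s, c0, b2, b1⟩ := h1 (sa hv' - sa hv)
  have n1 : K₁ * e.D.F.nrm 1 (sa hv' - sa hv).1 ≤ K₁ * K₂ * η := by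
    rw [mul_assoc, ← abs_of_nonneg η0]
    exact mul_le_mul_of_nonneg_left (h2 (fun i => v'.a i - v.a i) η
      (fun i => (smA hv' i).sub (smA hv i)) hc.1) p1
  have n2 := ((nrm_mono one_le_two χ).trans b2).trans n1
  have a1 := adm_ay H hv' (gau_ei s)
  have n3 : ‖e.D.F.toH 0 _ (sT (smΦ a1)) - e.D.F.toH 0 _ (sT (smΦ hv))‖ ≤
      K₃ * (1 + K₁ * K₂) * η := by
    rw [← map_sub, norm_toH]
    refine ((nrm_mono zero_le_one _).trans (h3 v' χ η hv' s (hη.trans (min_le_left _ _)) hc)).trans ?_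
    nlinarith [mul_le_mul_of_nonneg_left n2 p3]
  obtain ⟨c, k1, k2⟩ := h4 _ (n3.trans (by
    have := (le_div_iff₀ (by positivity)).1 (hη.trans (min_le_right _ _))
    nlinarith))
  have sθ : Sm e.Y.I fun y => χ y + c := s.add contMDiff_const
  have e1 : dS e.D.F sθ = dS e.D.F s := Subtype.ext (funext fun y => PiLp.ext fun k =>
    (dv_add (SA.md (s y)) mdifferentiableAt_const).trans (by rw [dv_const]; exact add_zero _))
  have e2 : sa (adm_ay H hv' (gau_ei sθ)) - sa hv = sa hv' - sa hv - dS e.D.F s := by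
    rw [sa_ay H hv' sθ, e1]; abel
  refine ⟨_, sθ, ?_⟩
  rintro _ rfl
  simp only [zH, Prod.fst_sub, Prod.snd_sub, Prod.norm_def, ← map_sub, e2, norm_toH]
  refine ⟨fun y => ?_, (dvH_toH _).2 c0, ?_, max_le ((b1.trans n1).trans ?_) ((h3 v' _ η hv' sθ
    (hη.trans (min_le_left _ _)) hc).trans ?_)⟩
  · have := c0 y
    rw [← e2] at this
    exact this
  · rw [lH, ContinuousLinearMap.comp_apply, ContinuousLinearMap.comp_apply, incl_toH zero_le_one,
      fg_toH, show sT (sp (adm_ay H hv' (gau_ei sθ)) - sp hv).2.1 = Real.cos c • sT (smΦ a1) +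
        Real.sin c • jS a1 - sT (smΦ hv) from Subtype.ext (funext fun y => congrArg (· - v.Φ y) ?_),
      map_sub, map_add, map_smul, map_smul, innerSL_apply_apply, inner_sub_right, inner_add_right,
      real_inner_smul_right, real_inner_smul_right, jj a1, ba, k2, sub_zero]
    show cs e.m.J _ (v'.Φ y) =
      Real.cos c • cs e.m.J _ (v'.Φ y) + Real.sin c • e.m.J (cs e.m.J _ (v'.Φ y))
    simp only [cs, ei, Complex.exp_ofReal_mul_I_re, Complex.exp_ofReal_mul_I_im, Real.cos_add,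
      Real.sin_add, map_add, map_smul, show ∀ w, e.m.J (e.m.J w) = -w from JJ H.cyl]
    module
  · exact mul_le_mul_of_nonneg_right (le_add_of_nonneg_right (by positivity)) η0
  · have a := nadd (F := e.D.F.toPre) (k := 1) s (contMDiff_const (c := c))
    have b := nrm_const_smul (F := e.D.F.toPre) 1 c (contMDiff_const (c := (1 : ℝ)))
    rw [show (c • fun _ : e.Y.M => (1 : ℝ)) = fun _ => c from funext fun _ => mul_one c] at b
    have d := mul_le_mul_of_nonneg_right (k1.trans (mul_le_mul_of_nonneg_left n3 p4)) pN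
    nlinarith [mul_le_mul_of_nonneg_left (a.trans (add_le_add n2 (b.trans_le d))) p3,
      mul_nonneg (mul_nonneg p1 p2) η0]

theorem max_sqrt {a b w g : ℝ} (hw : 0 < w) (h : g = 2 * a ^ 2 + w * b ^ 2) :
    max a b ≤ (1 + 1 / √w) * √g := by
  rw [add_mul, one_mul]
  refine max_le (le_add_of_le_of_nonneg (Real.le_sqrt_of_sq_le ?_) (by positivity))
    (le_add_of_nonneg_of_le (by positivity) ?_)
  · nlinarith [mul_nonneg hw.le (sq_nonneg b)]
  · rw [one_div, ← div_eq_inv_mul, ← Real.sqrt_div' _ hw.le]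
    exact Real.le_sqrt_of_sq_le ((le_div_iff₀' hw).2 (h ▸ le_add_of_nonneg_left (by positivity)))

theorem core (h : Gv v) : ∃ η₀ > 0, ∃ C ≥ 0, ∀ v' η (hv' : e.cyl.Adm (fz v')), η ≤ η₀ →
    Cy v' v 1 η → ∃ θ, ∃ hθ : Sm e.Y.I θ, ∀ x, x = zH (adm_ay h.ok hv' (gau_ei hθ)) - zH h.crit.1 →
      Co v (ay (ei θ) v') ∧ ‖x‖ ≤ C * η ∧ ‖x‖ ≤ C * √(gn v') ∧ ∀ r ∈ Icc (0 : ℝ) 1,
        ‖(GA h.ok (zH h.crit.1 + r • x), GP (zH h.crit.1 + r • x))‖ ≤ C * ‖x‖ := by
  obtain ⟨G', d, c, hc, hb⟩ := slice h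
  obtain ⟨δ, hδ, C, p, hC⟩ := gap_abs d (Prod.ext ((GA_zH ..).trans ((congrArg _ (Subtype.ext
    (funext fun y => PiLp.ext (h.crit.2.1 · y)))).trans (map_zero _))) ((GP_zH h.ok _).trans
      ((congrArg _ (Subtype.ext (funext h.crit.2.2))).trans (map_zero _)))) hc
  obtain ⟨η₀, h0, K, q, hK⟩ := fix h
  have w := h.w
  refine ⟨min η₀ (δ / (K + 1)), by positivity, K + C * (1 + 1 / √e.w), by positivity,
    fun v' η hv' hη hc => ?_⟩
  obtain ⟨θ, hθ, k⟩ := hK v' η hv' (hη.trans (min_le_left _ _)) hc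
  refine ⟨θ, hθ, fun x hx => ?_⟩
  obtain ⟨k1, k2, k3, k4⟩ := k x hx
  have η0 := hc.nn
  have k5 : ‖x‖ ≤ δ := k4.trans (by
    have := (le_div_iff₀ (by positivity)).1 (hη.trans (min_le_right _ _))
    nlinarith)
  have c1 : C ≤ K + C * (1 + 1 / √e.w) := by
    nlinarith [mul_nonneg p (show 0 ≤ 1 / √e.w by positivity)]
  refine ⟨k1, k4.trans (mul_le_mul_of_nonneg_right (le_add_of_nonneg_right (by positivity)) η0),
    ((hC x k5).2 (hb x k2 k3)).trans ?_, fun r hr => ?_⟩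
  · have g := gn_zH h.ok (adm_ay h.ok hv' (gau_ei hθ))
    rw [eqv_gn h.ok hv' (eqv_ay (gau_ei hθ) v')] at g
    rw [hx, add_sub_cancel, add_mul, mul_assoc]
    exact le_add_of_nonneg_of_le (by positivity) (mul_le_mul_of_nonneg_left (max_sqrt w g) p)
  · have : ‖r • x‖ ≤ ‖x‖ := by
      rw [norm_smul, Real.norm_of_nonneg hr.1]; exact mul_le_of_le_one_left (norm_nonneg _) hr.2
    exact (hC _ (this.trans k5)).1.trans (mul_le_mul c1 this (norm_nonneg _) (p.trans c1))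

/-- **GAP** -/
theorem gap : GapStmt κ lam ν := fun e v h => by
  obtain ⟨η₀, h0, C, -, hC⟩ := core h
  refine ⟨η₀, h0, (Fintype.card κ + 1) * C, fun v' η hη hv' hc => ?_⟩
  obtain ⟨θ, hθ, k⟩ := hC v' η hv' hη hc
  obtain ⟨k1, k2, k3, -⟩ := k _ rfl
  have d := (dist_le (adm_ay h.ok hv' (gau_ei hθ)) h.crit.1 1).trans ((add_le_add
    (mul_le_mul_of_nonneg_left (norm_fst_le (zH (adm_ay h.ok hv' (gau_ei hθ)) - zH h.crit.1))
      (Nat.cast_nonneg _)) (norm_snd_le _)).trans_eq (add_one_mul _ _).symm)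
  refine ⟨θ, hθ, k1, d.trans ?_, d.trans ?_⟩ <;> rw [mul_assoc] <;> gcongr

theorem D_time {N : Type} [NormedAddCommGroup N] [NormedSpace ℝ N] {f : e.Y.M × ℝ → N}
    (hf : Sm (IC e.Y.I) f) {y : e.Y.M} {s : ℝ} {a : N} (h : HasDerivAt (fun s => f (y, s)) a s) :
    e.D.Z.D none f (y, s) = a := (D_none e.D.F.toPre hf (y, s)).trans h.deriv

variable (X : DxStmt κ lam ν) (H : e.OK) (hv : e.cyl.Adm (fz v))
include X H hv

theorem dL_vr (hu : e.cyl.Adm (fz u)) (s : ℝ) :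
    HasDerivAt (fun s => L (v.vr u s)) (En3.ip (gr (v.vr u s)) u) s := by
  let c : e.ZC := ⟨fun i x => (fz v).a i x + x.2 * (fz u).a i x, fun x => v.Φ x.1 + x.2 • u.Φ x.1⟩
  have hc : e.cyl.Adm c :=
    ⟨fun i x => (hv.sa i x).add (SA.mul contMDiffAt_snd (hu.sa i x)),
      fun x => (hv.sΦ x).add (SA.smul contMDiffAt_snd (hu.sΦ x)), fun i x => by
        simp only [c, mul_add, mul_left_comm _ x.2, Finset.sum_add_distrib, ← Finset.mul_sum,
          hv.pa, hu.pa], fun x => (map_add ..).trans (congrArg₂ _ (hv.pΦ x)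
        ((map_smul ..).trans (congrArg _ (hu.pΦ x))))⟩
  have := X.dL e H c hc s
  rwa [show sl (dt c) s = u from YC.ext (funext fun k => funext fun y =>
    D_time (hc.sa _) (hd_line (v.a k y) (u.a k y) s))
    (funext fun y => D_time hc.sΦ (hd_line (v.Φ y) (u.Φ y) s))] at this

theorem L_ei (hθ : Sm e.Y.I θ) : L (ay (ei θ) v) = L v := by
  have s : Sm (IC e.Y.I) fun x : e.Y.M × ℝ => x.2 * θ x.1 := fun x =>
    SA.mul contMDiffAt_snd (sm_fst hθ x)
  have hc := adm_act H.cyl hv (gau_ei s)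
  have e1 : ∀ t, sl (e.cyl.act (ei fun x : e.Y.M × ℝ => x.2 * θ x.1) (fz v)) t =
      ay (ei fun y => t * θ y) v := fun t => sl_act_ay _ fun y => (gau_ei s).1 _
  have s1 : ∀ t : ℝ, Sm e.Y.I fun y => t * θ y := fun t y => SA.mul contMDiffAt_const (hθ y)
  have := is_const_of_deriv_eq_zero (fun t => (X.dL e H _ hc t).differentiableAt)
    (fun t => (X.dL e H _ hc t).deriv.trans (Eq.trans (congrArg₂ _ (congrArg _ (e1 t)) ?_)
      (X.orth e H _ (adm_ay H hv (gau_ei (s1 t))) θ hθ))) 1 0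
  · rw [e1, e1] at this
    simpa only [one_mul, zero_mul, show ei (fun _ : e.Y.M => (0 : ℝ)) = fun _ => 1 from
      funext fun _ => by simp [ei], ay_one] using this
  refine YC.ext (funext fun k => funext fun y => D_time (hc.sa _) ?_)
    (funext fun y => D_time hc.sΦ ?_)
  · refine (hd_line (v.a k y) (-e.D.F.D k θ y) t).congr_of_eventuallyEq (.of_forall fun r => ?_)
    refine (congrArg (·.a k y) (e1 r)).trans ((ay_a (gau_ei (s1 r)).1 v k y).trans ?_)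
    rw [th_ei _ (s1 r y), show (fun y => r * θ y) = r • θ from rfl, e.D.F.D_smul hθ]
    simp [sub_eq_add_neg]
  · have d := ((csL e.m.J).flip (v.Φ y)).hasFDerivAt.comp_hasDerivAt t
      ((((hasDerivAt_id t).mul_const (θ y)).ofReal_comp.mul_const Complex.I).cexp)
    refine d.congr_deriv ?_
    simp [gd, ay_Φ, csL, cs, ei, show ∀ w, e.m.J (e.m.J w) = -w from JJ H.cyl]
    module

omit H hv in
/-- **LOJ** -/
theorem loj : LojStmt κ lam ν := by
  refine ⟨fun e v h => ?_, fun e H v g hv hg h => ?_⟩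
  · obtain ⟨η₀, h0, C, p, hC⟩ := core h
    have w := h.w
    refine ⟨η₀, h0, (2 + e.w) * C * C ^ 2, fun v' η hη hv' hc => ?_⟩
    obtain ⟨θ, hθ, k⟩ := hC v' η hv' hη hc
    have a := adm_ay h.ok hv' (gau_ei hθ)
    let u : e.YC := (ay (ei θ) v').vr v (-1)
    have hu : e.cyl.Adm (fz u) := adm_vr a h.crit.1 _
    obtain ⟨-, k2, k3, k4⟩ := k (zH hu) ((zH_vr ..).trans (by rw [neg_one_smul, sub_eq_add_neg]))
    have m := norm_image_sub_le_of_norm_deriv_le_segment_01' (C := (2 + e.w) * C * ‖zH hu‖ ^ 2)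
      (fun s _ => (dL_vr X h.ok h.crit.1 hu s).hasDerivWithinAt) fun s hs => by
        have b := k4 s (Ico_subset_Icc_self hs)
        rw [← zH_vr h.crit.1 hu, GA_zH, GP_zH h.ok] at b
        rw [ip_H (smv_gr h.ok (adm_vr h.crit.1 hu s)) (show Smv u from ⟨smA hu, smΦ hu⟩)]
        have n1 : ‖e.D.F.toH 0 _ (show Smv u from ⟨smA hu, smΦ hu⟩).a‖ ≤ ‖zH hu‖ :=
          le_trans (by rw [norm_toH, zH, norm_toH]; exact nrm_mono zero_le_one _) (norm_fst_le _)
        have n2 : ‖e.D.F.toH 0 _ (sT (smΦ hu))‖ ≤ ‖zH hu‖ :=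
          le_trans (by rw [norm_toH, zH, norm_toH]; exact nrm_mono zero_le_one _) (norm_snd_le _)
        refine (norm_add_le _ _).trans ?_
        rw [norm_mul, norm_mul, Real.norm_two, Real.norm_of_nonneg w.le]
        refine (add_le_add (mul_le_mul_of_nonneg_left ((norm_inner_le_norm _ _).trans (mul_le_mul
          ((norm_fst_le _).trans b) n1 (norm_nonneg _) (by positivity))) zero_le_two)
          (mul_le_mul_of_nonneg_left ((norm_inner_le_norm _ _).trans (mul_le_mul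
            ((norm_snd_le _).trans b) n2 (norm_nonneg _) (by positivity))) w.le)).trans_eq ?_
        ring
    rw [show v.vr u 1 = ay (ei θ) v' from YC.ext (by ext; simp [u, YC.vr]) (by ext; simp [u, YC.vr]),
      show v.vr u 0 = v from YC.ext (by ext; simp [YC.vr]) (by ext; simp [YC.vr]),
      L_ei X h.ok hv' hθ] at m
    have g : 0 ≤ gn v' := by rw [gn_zH h.ok hv']; positivity
    refine ⟨m.trans ?_, m.trans ?_⟩ <;> rw [mul_assoc _ (C ^ 2)]
    · rw [← mul_pow]; gcongr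
    · rw [← Real.sq_sqrt g, ← mul_pow]; gcongr
  · have m : ∀ y, g y ∈ Complex.slitPlane := fun y => by
      simpa using Complex.mem_slitPlane_of_norm_lt_one (h y)
    have s : Sm e.Y.I fun y => (Complex.log (g y)).im := fun y => SA.clm Complex.imCLM
      (((Complex.contDiffAt_log (m y)).restrict_scalars ℝ).contMDiffAt.comp y (hg.1 y))
    rw [← L_ei X H hv s]
    congr 2
    funext y
    have := Complex.norm_mul_exp_arg_mul_I (g y)
    rw [hg.2, Complex.ofReal_one, one_mul] at this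
    rw [ei, Complex.log_im, this]

end Crest.Agent.X212.Dec47
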