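import Crest.Agent.X212.Dec47.Defs
import Crest.Agent.X212.Pb50.Cyl
import Crest.Agent.X212.Rsp69.Loc

/-!
# Row 212, SW-DEC (helper47): slices, the action on the cross-section, bounds of gauges
-/

set_option autoImplicit false
set_option linter.unusedSectionVars false
noncomputable section
open scoped Manifold ContDiff Topology InnerProductSpace
open MeasureTheory Set Function Filter

namespace Crest.Agent.X212.Dec47
open An Cyf70 Sw Sw.En3 Sob92 Pb50
open Wz78 (SA)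
open Rsp69 (PB Bk Ub)

section gen
variable {E : Type} [NormedAddCommGroup E] [NormedSpace ℝ E] [FiniteDimensional ℝ E]
  [MeasurableSpace E] [BorelSpace E]
  {HM : Type} [TopologicalSpace HM] {I : ModelWithCorners ℝ E HM}
  {M : Type} [TopologicalSpace M] [ChartedSpace HM M] [IsManifold I ∞ M] [MeasurableSpace M]
  {ι : Type} [Fintype ι] {θ : M → ℝ} {u u' : M → ℂ} {x : M}

theorem norm_ei (θ : M → ℝ) (x : M) : ‖ei θ x‖ = 1 := Complex.norm_exp_ofReal_mul_I _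

theorem cd_ei : ContDiff ℝ ∞ fun t : ℝ => Complex.exp (t * Complex.I) :=
  Complex.contDiff_exp.comp (Complex.ofRealCLM.contDiff.mul contDiff_const)

theorem lg_ei (h : SA I θ x) : LG I (ei θ) x :=
  ⟨cd_ei.contMDiff.contMDiffAt.comp x h, .of_forall (norm_ei θ)⟩

theorem gau_ei (h : Sm I θ) : Gau I (ei θ) := ⟨fun x => (lg_ei (h x)).sm, norm_ei θ⟩

theorem gau_mul (h : Gau I u) (h' : Gau I u') : Gau I fun x => u x * u' x :=
  ⟨fun x => Wz78.SA.mul (h.1 x) (h'.1 x), fun x => by rw [norm_mul, h.2, h'.2, one_mul]⟩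

theorem gau_star (h : Gau I u) : Gau I fun x => star (u x) :=
  ⟨fun x => sa_star (h.1 x), fun x => by rw [norm_star, h.2]⟩

theorem D_ei (F : Pre I M ι) (h : SA I θ x) (i : ι) :
    F.D i (ei θ) x = F.D i θ x • (Complex.I * ei θ x) := by
  have d : HasDerivAt (fun t : ℝ => Complex.exp (t * Complex.I)) (Complex.I * ei θ x) (θ x) := by
    have := ((hasDerivAt_id (θ x)).ofReal_comp.mul_const Complex.I).cexp
    simpa [ei, mul_comm] using this
  have := (Rsp69.D_comp_ev (F := F) cd_ei h i).self_of_nhds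
  simp only [d.hasFDerivAt.fderiv] at this
  exact this.symm

theorem th_ei (F : Pre I M ι) (h : SA I θ x) (i : ι) : th F (ei θ) i x = F.D i θ x := by
  have := star_mul_one (norm_ei θ x)
  rw [th, D_ei F h, mul_smul_comm, mul_left_comm, this]
  simp

theorem LG.ev (h : LG I u x) (h' : ∀ᶠ y in 𝓝 x, SA I u y) : ∀ᶠ y in 𝓝 x, LG I u y :=
  (h'.and h.one.eventually_nhds).mono fun _ k => ⟨k.1, k.2⟩

variable {𝒟 : Type*} {F : 𝒟 → Pre I M ι} {l : Filter 𝒟} {S : 𝒟 → Set M} {w : 𝒟 → M → ℝ} {k : ℕ}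
  {g : 𝒟 → M → ℂ}

theorem bk_Dg (h : ∀ᶠ d in l, ∀ x ∈ S d, ∀ᶠ y in 𝓝 x, LG I (g d) y) {i : ι}
    (ht : Bk (N := fun _ => ℝ) F l S w k fun d => th (F d) (g d) i)
    (hg : Bk (N := fun _ => ℂ) F l S 1 k g) :
    Bk (N := fun _ => ℂ) F l S w k fun d => (F d).D i (g d) :=
  (ht.smulL (hg.clm (L := fun _ => ContinuousLinearMap.mul ℝ ℂ Complex.I) (.const _))).congr
    (h.mono fun d h x hx => (h x hx).mono fun _ k => (k.D (F d) i).symm)

/-- a gauge transformation with bounded logarithmic derivative is bounded -/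
theorem bk_gau (h : ∀ᶠ d in l, ∀ x ∈ S d, ∀ᶠ y in 𝓝 x, LG I (g d) y) (k : ℕ) :
    (∀ i, Bk (N := fun _ => ℝ) F l S 1 k fun d => th (F d) (g d) i) →
      Bk (N := fun _ => ℂ) F l S 1 (k + 1) g := by
  have h0 : Bk (N := fun _ => ℂ) F l S 1 0 g := ⟨1, zero_le_one, h.mono fun d h x hx =>
    ⟨zero_le_one, (h x hx).self_of_nhds.sm, .zero' (by
      rw [(h x hx).self_of_nhds.one.self_of_nhds]; simp)⟩⟩
  induction k with
  | zero => exact fun ht => h0.succ fun i => bk_Dg h (ht i) h0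
  | succ k ih => exact fun ht => h0.succ fun i => bk_Dg h (ht i) (ih fun i => (ht i).of_le k.le_succ)

end gen

section cyl
variable {E : Type} [NormedAddCommGroup E] [NormedSpace ℝ E] [FiniteDimensional ℝ E]
  [MeasurableSpace E] [BorelSpace E]
  {HM : Type} [TopologicalSpace HM] {I : ModelWithCorners ℝ E HM} [I.Boundaryless]
  {Y : Type} [TopologicalSpace Y] [ChartedSpace HM Y] [IsManifold I ∞ Y] [MeasurableSpace Y]
  [BorelSpace Y] [SigmaCompactSpace Y] {ι : Type} [Fintype ι] (F : Pre I Y ι)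
  {N : Type} [NormedAddCommGroup N] [NormedSpace ℝ N]

/-- derivatives along a slice -/
theorem Dw_sl (w : List ι) {t : ℝ} : ∀ {f : Y × ℝ → N}, (∀ y, SA (IC I) f (y, t)) → ∀ y,
    (cylP F).Dw (w.map some) f (y, t) = F.Dw w (fun z => f (z, t)) y := by
  induction w with
  | nil => exact fun _ _ => rfl
  | cons a w ih =>
    intro f h y
    have e : (fun z => (cylP F).D (some a) f (z, t)) = F.D a fun z => f (z, t) :=
      funext fun z => D_some_at F (h z).md a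
    exact (ih (fun z => sa_D _ (h z) _) y).trans (by rw [e]; rfl)

/-- bounds of static fields -/
theorem cb_fst (k : ℕ) {C : ℝ} : ∀ {f : Y → N}, Sm I f → F.CB k f C →
    (cylP F).CB k (fun x => f x.1) C := by
  induction k with
  | zero => exact fun _ h => CB_zero.2 fun x => CB_bound h _
  | succ k ih =>
    intro f hf h
    refine CB_succ.2 ⟨fun x => CB_bound h _, fun a => ?_⟩
    cases a with
    | none =>
      rw [D_none_fst F hf]
      exact CB_of_le (j := k) (fun w hw x => ((CB_const k (0 : N) w hw x).trans (by simp)).trans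
        ((norm_nonneg _).trans (CB_bound h x.1))) le_rfl
    | some a => rw [D_some_fst F hf]; exact ih (F.sm_D hf a) (CB_D h a)

theorem cb_sl {k : ℕ} {C t : ℝ} {f : Y × ℝ → N} (h : ∀ y, SA (IC I) f (y, t))
    (hb : ∀ y, PB (cylP F) k f (y, t) C) : F.CB k (fun z => f (z, t)) C := fun w hw y =>
  Dw_sl F w h y ▸ hb y _ (by simpa using hw)

end cyl

variable {κ lam ν : Type} [Fintype κ] [Fintype lam] [Fintype ν] [DecidableEq ν]
  {e : En3 κ lam ν} {c c' : e.ZC} {u : e.Y.M × ℝ → ℂ} {s t η : ℝ} {v v' : e.YC}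
  {g g' : e.Y.M → ℂ} {k : ℕ} {J : Set ℝ}

theorem sl_fz (v : e.YC) (t : ℝ) : sl (fz v) t = v := rfl

theorem fz_ay (hg : Sm e.Y.I g) (v : e.YC) :
    fz (ay g v) = e.cyl.act (fun x => g x.1) (fz v) := sl_act (fz v) fun y => sm_fst hg (y, 0)

theorem ay_a (hg : Sm e.Y.I g) (v : e.YC) (i : κ) (y : e.Y.M) :
    (ay g v).a i y = v.a i y - th e.D.F.toPre g i y :=
  congrArg (fun z : ℂ => v.a i y - (star (g y) * z).im)
    (congrFun (D_some_fst e.D.F.toPre hg i) (y, 0))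

theorem ay_Φ (v : e.YC) (y : e.Y.M) : (ay g v).Φ y = cs e.m.J (g y) (v.Φ y) := rfl

theorem eqv_ay (hg : Gau e.Y.I g) (v : e.YC) : Eqv v (ay g v) := ⟨g, hg, fz_ay hg.1 v⟩

theorem adm_ay (he : e.OK) (hv : e.cyl.Adm (fz v)) (hg : Gau e.Y.I g) : e.cyl.Adm (fz (ay g v)) :=
  Eqv.adm he hv (eqv_ay hg v)

theorem ay_ay (he : e.OK) (hg : Gau e.Y.I g) (hg' : Gau e.Y.I g') (v : e.YC) :
    ay g' (ay g v) = ay (fun y => g' y * g y) v := by
  rw [ay, fz_ay hg.1, act_act he.cyl (gau_fst hg) (gau_fst hg')]; rfl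

theorem ay_one (v : e.YC) : ay (fun _ => 1) v = v := by rw [ay, act_one]; rfl

theorem sl_act_ay (c : e.ZC) (hu : ∀ y, SA (IC e.Y.I) u (y, t)) :
    sl (e.cyl.act u c) t = ay (fun y => u (y, t)) (sl c t) := by
  rw [ay, ← sl_act c hu]; rfl

theorem gr_ay (he : e.OK) (hv : e.cyl.Adm (fz v)) (hg : Gau e.Y.I g) :
    (gr (ay g v)).a = (gr v).a ∧ ∀ y, (gr (ay g v)).Φ y = cs e.m.J (g y) ((gr v).Φ y) :=
  gr_act he hv hg (fz_ay hg.1 v)

theorem smA (hv : e.cyl.Adm (fz v)) (i : κ) : Sm e.Y.I (v.a i) := sm_slice_fst (hv.sa (some i)) 0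

theorem smΦ (hv : e.cyl.Adm (fz v)) : Sm e.Y.I v.Φ := sm_slice_fst hv.sΦ 0

theorem Cy.of_le (h : Cy v v' k η) {j : ℕ} (hj : j ≤ k) : Cy v v' j η :=
  ⟨fun i => CB_of_le (h.1 i) hj, CB_of_le h.2 hj⟩

theorem Cy.mono (h : Cy v v' k η) {η' : ℝ} (hη : η ≤ η') : Cy v v' k η' :=
  ⟨fun i => CB_mono (h.1 i) hη, CB_mono h.2 hη⟩

theorem Cy.nn (h : Cy v v' k η) : 0 ≤ η :=
  (norm_nonneg _).trans (CB_bound h.2 (Classical.choice inferInstance))

/-- closeness on the cylinder gives closeness of the slices -/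
theorem cy_of_cl (h : Cl c c' J k η) (ht : t ∈ J) (hc : ∀ y, LA e.cyl c (y, t))
    (hc' : ∀ y, LA e.cyl c' (y, t)) : Cy (sl c t) (sl c' t) k η :=
  ⟨fun i => cb_sl e.D.F.toPre (f := c.a (some i) - c'.a (some i))
      (fun y => ((hc y).sa _).sub ((hc' y).sa _)) fun y w hw => (h w hw (y, t) ⟨trivial, ht⟩).1 _,
    cb_sl e.D.F.toPre (f := c.Φ - c'.Φ) (fun y => (hc y).sΦ.sub (hc' y).sΦ)
      fun y w hw => (h w hw (y, t) ⟨trivial, ht⟩).2⟩

/-- closeness of static configurations -/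
theorem cl_fz (hv : e.cyl.Adm (fz v)) (hv' : e.cyl.Adm (fz v')) (h : Cy v v' k η) (J : Set ℝ) :
    Cl (fz v) (fz v') J k η := fun w hw x _ => ⟨fun i => by
    cases i with
    | none =>
      have e0 : (fz v).a none - (fz v').a none = fun _ => (0 : ℝ) := funext fun _ => sub_self _
      rw [e0]
      exact ((CB_const (F := e.D.Z.toPre) k (0 : ℝ) w hw x).trans (by simp)).trans h.nn
    | some i => exact cb_fst e.D.F.toPre k ((smA hv i).sub (smA hv' i)) (h.1 i) w hw x,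
  cb_fst e.D.F.toPre k ((smΦ hv).sub (smΦ hv')) h.2 w hw x⟩

/-- rigidity on the cross-section -/
theorem near1 (hW : WinStmt κ lam ν) (h : Gv v) : ∃ η₀ > 0, ∃ C ≥ 0, ∀ (v' : e.YC) g η, η ≤ η₀ →
    e.cyl.Adm (fz v') → Gau e.Y.I g → Cy v' v 0 η → Cy (ay g v') v 0 η → ∀ y, ‖g y - 1‖ ≤ C * η := by
  obtain ⟨η₀, h0, hC⟩ := hW.rig e v h.ok h.crit h.irr
  obtain ⟨C, hC⟩ := hC 0
  refine ⟨η₀, h0, |C|, abs_nonneg _, fun v' g η hη hv hg h1 h2 y => ?_⟩
  refine (hC (fz v') (fun x => g x.1) 0 η hη (admOn_of fun x _ => .of_adm hv x)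
    ⟨(gau_fst hg).1.contMDiffOn, fun x _ => hg.2 _⟩ (cl_fz hv h.crit.1 h1 _)
    (fz_ay hg.1 v' ▸ cl_fz (adm_ay h.ok hv hg) h.crit.1 h2 _) [] (by simp) (y, 0)
    ⟨trivial, by simp⟩).trans (mul_le_mul_of_nonneg_right (le_abs_self C) h1.nn)

end Crest.Agent.X212.Dec47
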