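import Crest.Agent.X212.Sw.Cyl

/-!
# Row 212, SW-DEC (helper47): definitions and the statements of the leaves
-/

set_option autoImplicit false
set_option linter.unusedSectionVars false
noncomputable section
open scoped Manifold ContDiff Topology InnerProductSpace
open MeasureTheory Set Function Filter

namespace Crest.Agent.X212.Dec47
open An Cyf70 Sw Sw.En3

variable {κ lam ν : Type} [Fintype κ] [Fintype lam] [Fintype ν] [DecidableEq ν]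
  {e : En3 κ lam ν}

/-- the time derivative -/
def dt (c : e.ZC) : e.ZC := ⟨fun i => e.D.Z.D none (c.a i), e.D.Z.D none c.Φ⟩

/-- the infinitesimal gauge action -/
def gd (v : e.YC) (χ : e.Y.M → ℝ) : e.YC :=
  ⟨fun k y => -e.D.F.D k χ y, fun y => χ y • e.m.J (v.Φ y)⟩

/-- the gauge action on the cross-section -/
def ay (g : e.Y.M → ℂ) (v : e.YC) : e.YC := sl (e.cyl.act (fun x => g x.1) (fz v)) 0

/-- the phase `e^{iθ}` -/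
def ei {M : Type} (θ : M → ℝ) (y : M) : ℂ := Complex.exp (θ y * Complex.I)

/-- `C^k`-closeness on the cross-section -/
def Cy (v v' : e.YC) (k : ℕ) (η : ℝ) : Prop :=
  (∀ i, e.D.F.CB k (v.a i - v'.a i) η) ∧ e.D.F.CB k (v.Φ - v'.Φ) η

/-- Coulomb gauge relative to `v` -/
def Co (v v' : e.YC) : Prop :=
  ∀ y, ∑ i, (e.D.F.D i (v'.a i - v.a i) y + e.D.F.dv i y * (v'.a i - v.a i) y) = 0

/-- the equations without transversality terms at the time `s` -/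
def Ea (c : e.ZC) (s : ℝ) : Prop := ∀ y,
  e.cyl.eD c (y, s) = e.b (nm (sl c s)) • e.m.ρ none y (c.Φ (y, s)) ∧
    e.cyl.eC c (y, s) = -deriv e.f (hol (sl c s)) • e.ζ y

/-- solutions without transversality terms -/
abbrev So (c : e.ZC) (p p' : Option ℝ) : Prop := Loc (W := Empty) (fun _ => none) 0 c p p'

/-- nondegenerate irreducible critical points -/
structure Gv (v : e.YC) : Prop where
  ok : e.OK
  w : 0 < e.w
  crit : Crit v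
  nd : Nd v
  irr : ∃ y, v.Φ y ≠ 0

/-- the small windows -/
abbrev iv (j : ℤ) : Set ℝ := Ioo (((j : ℝ) - 1) / 4) (((j : ℝ) + 1) / 4)

variable (κ lam ν)

/-- DX: `gr` is the gradient of `L`, orthogonal to the orbits; the flow in temporal gauge -/
structure DxStmt : Prop where
  dL : ∀ e : En3 κ lam ν, e.OK → ∀ c : e.ZC, e.cyl.Adm c → ∀ s,
    HasDerivAt (fun s => L (sl c s)) (ip (gr (sl c s)) (sl (dt c) s)) s
  orth : ∀ e : En3 κ lam ν, e.OK → ∀ v : e.YC, e.cyl.Adm (fz v) → ∀ χ, Sm e.Y.I χ →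
    ip (gr v) (gd v χ) = 0
  flow : ∀ e : En3 κ lam ν, e.OK → ∀ c : e.ZC, e.cyl.Adm c → ∀ s, (∀ y, c.a none (y, s) = 0) →
    Ea c s → (∀ k y, (dt c).a (some k) (y, s) = -(gr (sl c s)).a k y) ∧
      ∀ y, (dt c).Φ (y, s) = -(gr (sl c s)).Φ y

/-- GAP: the slice representative is controlled by the gradient -/
def GapStmt : Prop := ∀ (e : En3 κ lam ν) (v : e.YC), Gv v → ∃ η₀ > 0, ∃ C : ℝ, ∀ v' η, η ≤ η₀ →
  e.cyl.Adm (fz v') → Cy v' v 1 η → ∃ θ, Sm e.Y.I θ ∧ Co v (ay (ei θ) v') ∧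
    dist 1 (ay (ei θ) v') v ≤ C * η ∧ dist 1 (ay (ei θ) v') v ≤ C * √(gn v')

/-- LOJ: the Lojasiewicz inequality; invariance under small gauge transformations -/
structure LojStmt : Prop where
  loj : ∀ (e : En3 κ lam ν) (v : e.YC), Gv v → ∃ η₀ > 0, ∃ C : ℝ, ∀ v' η, η ≤ η₀ →
    e.cyl.Adm (fz v') → Cy v' v 1 η → |L v' - L v| ≤ C * η ^ 2 ∧ |L v' - L v| ≤ C * gn v'
  inv : ∀ e : En3 κ lam ν, e.OK → ∀ (v : e.YC) g, e.cyl.Adm (fz v) → Gau e.Y.I g →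
    (∀ y, ‖g y - 1‖ < 1) → L (ay g v) = L v

/-- HI: higher order bounds in the slice -/
def HiStmt : Prop := ∀ (e : En3 κ lam ν) (v : e.YC), e.OK → Crit v → ∀ (k : ℕ) (B : ℝ), ∃ C : ℝ,
  ∀ v₁ g ε, ε ≤ B → e.cyl.Adm (fz v₁) → Gau e.Y.I g → Cy v₁ ⟨0, 0⟩ (k + 4) B →
    Cy (gr v₁) ⟨0, 0⟩ (k + 4) ε → Co v (ay g v₁) → dist 1 (ay g v₁) v ≤ ε →
    Cy (ay g v₁) v k (C * ε) ∧ e.D.F.CB k g C

/-- INT: interior estimates for the time derivative in temporal gauge -/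
def IntStmt : Prop := ∀ e : En3 κ lam ν, e.OK → 0 < e.w → ∀ (k : ℕ) (B : ℝ), ∃ C : ℝ,
  ∀ (c : e.ZC) s ε, 0 ≤ ε → e.cyl.Adm c → (∀ i, e.D.Z.CB (k + 4) (c.a i) B) →
    e.D.Z.CB (k + 4) c.Φ B →
    (∀ t ∈ Ioo (s - 1 / 2) (s + 1 / 2), (∀ y, c.a none (y, t) = 0) ∧ Ea c t) →
    en c (Ioo (s - 1 / 2) (s + 1 / 2)) ≤ ENNReal.ofReal (ε ^ 2) →
    Cl (dt c) ⟨0, 0⟩ (Ioo (s - 1 / 4) (s + 1 / 4)) k (C * ε)

/-- WD: one gauge on a small window -/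
def WdStmt : Prop := ∀ (e : En3 κ lam ν) (v : e.YC), Gv v → ∃ η₀ > 0, ∀ B : ℝ, ∃ C : ℕ → ℝ,
  ∀ (c : e.ZC) s ε, 0 ≤ ε → ε ≤ B → So c (some (s - 5 / 4)) (some (s + 5 / 4)) →
    Sup c (Ioo (s - 5 / 4) (s + 5 / 4)) B → (∃ g, Gau e.Y.I g ∧ Cy (ay g (sl c s)) v 1 η₀) →
    en c (Ioo (s - 5 / 4) (s + 5 / 4)) ≤ ENNReal.ofReal (ε ^ 2) →
    ∃ u, Gau e.Z.I u ∧ ∀ k, Cl (e.cyl.act u c) (fz v) (Ioo (s - 1 / 4) (s + 1 / 4)) k (C k * ε)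

/-- PATCH: local gauges are patched -/
def PatchStmt : Prop := ∀ (e : En3 κ lam ν) (v : e.YC), Gv v → ∃ η₀ > 0, ∀ (k : ℕ) (A : ℝ),
  ∃ C : ℝ, ∀ (c : e.ZC) (u : ℤ → e.Y.M × ℝ → ℂ) (S : Set ℤ) (ε : ℤ → ℝ), S.OrdConnected →
    (∀ j ∈ S, Gau e.Z.I (u j) ∧ e.cyl.AdmOn c (univ ×ˢ iv j) ∧ ε j ≤ A ∧
      Cl (e.cyl.act (u j) c) (fz v) (iv j) 0 η₀ ∧ Cl (e.cyl.act (u j) c) (fz v) (iv j) k (ε j)) →
    ∃ u', Gau e.Z.I u' ∧ ∀ j ∈ S, j + 1 ∈ S → Cl (e.cyl.act u' c) (fz v)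
      (Ico ((j : ℝ) / 4) (((j : ℝ) + 1) / 4)) k (C * (ε j + ε (j + 1)))

/-- MAIN -/
def MainStmt : Prop := DlStmt κ lam ν → WinStmt κ lam ν → LojStmt κ lam ν → WdStmt κ lam ν →
  PatchStmt κ lam ν → DecStmt κ lam ν

end Crest.Agent.X212.Dec47
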