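import Crest.Agent.X212.Dec47.Gen
import Crest.Agent.X212.Sep15.Hh

/-!
# Row 212, SW-DEC (helper47): the Hessian is bounded below on the slice
-/

set_option autoImplicit false
set_option linter.unusedSectionVars false
noncomputable section
open scoped Manifold ContDiff Topology InnerProductSpace
open MeasureTheory Set Function Filter Module Asymptotics ContinuousLinearMap

namespace Crest.Agent.X212.Dec47
open An An.Pre Sw Sw.En3 Sob92 Ell97 Rdc90 Cyl58 Cyf70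
open Wz78 (SA nab_zero)
open Map77 (P2 f2 s2 i1 i2)

variable {κ lam ν : Type} [Fintype κ] [Fintype lam] [Fintype ν] [DecidableEq ν]
  {e : En3 κ lam ν} {u v : e.YC}

variable (v) in
/-- the polarised moment map -/
def m1 (y : e.Y.M) : Eu ν →L[ℝ] Fm κ ℝ := β1 e y (v.Φ y) + (β1 e y).flip (v.Φ y)

variable (e) in
/-- the divergence -/
def dvH : e.D.F.H 1 (P1 e.D.F) →L[ℝ] e.D.F.H 0 (triv e.Y.M (P2 ℝ (Fm (κ × κ) ℝ))) :=
  e.D.F.mulH 0 (triv _ _) _ (fun _ => i1 _ _ ∘L f2 _ _) ∘L (A1 e.D.F).H e.D.F 0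

theorem dvH_toH (a : Sec e.Y.I (P1 e.D.F)) : dvH e (e.D.F.toH 1 _ a) = 0 ↔
    ∀ y, dvS e.D.F a.1 y = 0 := by
  obtain ⟨C, hF⟩ := tame3 e
  obtain ⟨C', hA⟩ := good1 _ hF
  rw [dvH, ContinuousLinearMap.comp_apply, show (A1 e.D.F).H e.D.F 0 _ = e.D.F.toH 0 (triv _ _) _ from H_toH hA 0 a,
    mulH_toH contMDiff_const, map_eq_zero_iff _ (toH_inj _ 0 _), Subtype.ext_iff, funext_iff]
  refine forall_congr' fun y => ⟨fun h => ?_, fun h => by simp [app1, h]⟩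
  simpa [app1] using congrArg (f2 _ _) h

/-- the rotated spinor -/
def jS (hv : e.cyl.Adm (fz v)) : Sec e.Y.I (triv e.Y.M (Eu ν)) :=
  sT (u := fun y => e.m.J (v.Φ y)) (e.m.J.contMDiff.comp (smΦ hv))

/-- the last slice condition -/
def lH (hv : e.cyl.Adm (fz v)) : e.D.F.H 1 (pY e) →L[ℝ] ℝ :=
  innerSL ℝ (e.D.F.toH 0 _ (jS hv)) ∘L fg _ 0 _ ∘L e.D.F.incl 1 0 _

theorem adm_vr (hv : e.cyl.Adm (fz v)) (hu : e.cyl.Adm (fz u)) (r : ℝ) :
    e.cyl.Adm (fz (v.vr u r)) :=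
  adm_fz (fun k y => (smA hv k y).add (SA.mul contMDiffAt_const (smA hu k y)))
    (fun y => (smΦ hv y).add (SA.smul contMDiffAt_const (smΦ hu y)))
    (fun k y => by simp only [YC.vr, mul_add, mul_left_comm _ r, Finset.sum_add_distrib,
      ← Finset.mul_sum, a_P hv, a_P hu])
    fun y => (map_add ..).trans (congrArg₂ _ (hv.pΦ (y, 0))
      ((map_smul ..).trans (congrArg _ (hu.pΦ (y, 0)))))

theorem zH_vr (hv : e.cyl.Adm (fz v)) (hu : e.cyl.Adm (fz u)) (r : ℝ) :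
    zH (adm_vr hv hu r) = zH hv + r • zH hu :=
  Prod.ext ((map_add (e.D.F.toH 1 _) (sa hv) (r • sa hu)).trans (congrArg _ (map_smul ..)))
    ((map_add (e.D.F.toH 1 _) (sp hv) (r • sp hu)).trans (congrArg _ (map_smul ..)))

variable (H : e.OK)
include H

theorem A1_H (x : e.D.F.H 1 (P1 e.D.F)) : (A1 e.D.F).H e.D.F 0 x = e.D.F.mulH 0 (triv _ _) _ (Λ1 e)
    (e.D.F.mulH 0 (triv _ _) _ (Λ0 e) ((A1 e.D.F).H e.D.F 0 x)) + dvH e x := by
  obtain ⟨C, hF⟩ := tame3 e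
  obtain ⟨C', hA⟩ := good1 _ hF
  induction x using H_ind with
  | hP => exact isClosed_eq (by fun_prop) (by fun_prop)
  | h a =>
    have hv : e.cyl.Adm (fz ⟨fun k y => a.1 y k, 0⟩) := adm_fz (sm_comp a.2.1) contMDiff_const
      (fun k y => (Sep15.S.idx_ap ..).symm.trans (congrArg (· k) (a.2.2.2 y))) fun _ => map_zero _
    rw [dvH, ContinuousLinearMap.comp_apply, show (A1 e.D.F).H e.D.F 0 _ = e.D.F.toH 0 (triv _ _) _ from H_toH hA 0 a,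
      mulH_toH contMDiff_const, mulH_toH (f := Λ0 e) (sm_Λ0 H), mulH_toH (f := Λ1 e) (sm_Λ1 H),
      ← map_add]
    refine congrArg _ (Subtype.ext (funext fun y => (app1 _ (sa hv) y).trans
      ((add_comm _ _).trans (congrArg₂ _ ?_ (by simp [app1]; rfl)))))
    show _ = i2 _ _ (Map77.tp _ (Λ0 e y ((A1 e.D.F).app e.D.F (sa hv).1 y)))
    congr 1
    ext s
    simp only [Map77.tp_apply, sum_apply, smul_apply, Map77.pj_apply, Λ0_app H hv, smul_eq_mul,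
      mul_assoc, ← Finset.mul_sum, o3_inv H (da_anti (a_P hv) · · y)
        (da_P (smA hv) (a_P hv) · · y)]
    rfl

variable (v) in
/-- the derivative of the first component of the gradient -/
def dA (x : HC e) : e.D.F.H 0 (triv e.Y.M (Fm κ ℝ)) :=
  e.D.F.mulH 0 (triv _ _) _ (Λ0 e) ((A1 e.D.F).H e.D.F 0 x.1) +
    (e.D.F.mulH 0 _ _ (m1 v) (e.D.F.incl 1 0 _ x.2) + (deriv (deriv e.f) (hol v) *
      (2 * ⟪e.D.F.toH 0 _ (c1 H), fg _ 0 _ (e.D.F.incl 1 0 _ x.1)⟫_ℝ)) • e.D.F.toH 0 _ (c1 H))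

variable (hv : e.cyl.Adm (fz v))
include hv

omit H in
/-- the derivative of the second component of the gradient -/
def dP (x : HC e) : e.D.F.H 0 (triv e.Y.M (Eu ν)) :=
  (A2 e).H e.D.F 0 x.2 - (e.D.F.mulH 0 _ _ (fun y => β2 e y ((sa hv).1 y)) (e.D.F.incl 1 0 _ x.2) +
    e.D.F.mulH 0 _ _ (fun y => (β2 e y).flip (v.Φ y)) (e.D.F.incl 1 0 _ x.1) +
    (e.b (nm v) • fg _ 0 _ (e.D.F.incl 1 0 _ x.2) + (deriv e.b (nm v) *
      (2 * ⟪e.D.F.toH 0 _ (sp hv), e.D.F.incl 1 0 _ x.2⟫_ℝ)) • e.D.F.toH 0 _ (sT (smΦ hv))))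

theorem sm_m1 : Sm e.Y.I (m1 v) :=
  ((sm_β1 H).clm_apply (smΦ hv)).add ((sm_flip (sm_β1 H)).clm_apply (smΦ hv))

theorem fGA : ∃ G' : HC e →L[ℝ] _, HasFDerivAt (GA H) G' (zH hv) ∧ ∀ x, G' x = dA v H x := by
  have d := ((contDiff_infty_iff_deriv.1 H.sf).2.differentiable (by simp) (hol v)).hasDerivAt
  have h := (((e.D.F.mulH 0 (triv _ _) _ (Λ0 e) ∘L (A1 e.D.F).H e.D.F 0 ∘L fst ℝ _ _).hasFDerivAt
    (x := zH hv)).fun_add ((e.D.F.bilH 1 1 _ _ (triv _ _) 0 (β1 e)).hasFDerivAt_of_bilinear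
      hasFDerivAt_snd hasFDerivAt_snd)).fun_add (((d.comp_hasFDerivAt_of_eq (zH hv)
        ((innerSL ℝ (e.D.F.toH 0 _ (c1 H)) ∘L fg _ 0 _ ∘L e.D.F.incl 1 0 _ ∘L
          fst ℝ _ (e.D.F.H 1 (pY e))).hasFDerivAt.const_mul 2) (by
            simp [zH, hol_H H hv, incl_toH, fg_toH])).smul_const
        (e.D.F.toH 0 _ (c1 H))).const_add (e.D.F.toH 0 _ (c0 H)))
  refine ⟨_, h, fun x => ?_⟩
  have e1 : e.D.F.mulH 0 _ _ (m1 v) = _ := mulH_add (F := e.D.F.toPre) (k := 0) (p := pY e)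
    (Cb_of_compact ((sm_β1 H).clm_apply (smΦ hv))) (Maps.triv _)
    (Cb_of_compact ((sm_flip (sm_β1 H)).clm_apply (smΦ hv))) (Maps.triv _)
  simp [dA, e1, zH, bil_l e.Y.dim.le (sm_β1 H), bil_r e.Y.dim.le (sm_β1 H), sp, add_assoc]

theorem fGP : ∃ G' : HC e →L[ℝ] _, HasFDerivAt GP G' (zH hv) ∧ ∀ x, G' x = dP hv x := by
  have d := (H.sb.differentiable (by simp) (nm v)).hasDerivAt
  have n : nm v = ‖(e.D.F.incl 1 0 _ ∘L snd ℝ (e.D.F.H 1 (P1 e.D.F)) _) (zH hv)‖ ^ 2 := by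
    simp [zH, nm_H hv, incl_toH]
  have h := (((A2 e).H e.D.F 0 ∘L snd ℝ _ _).hasFDerivAt (x := zH hv)).fun_sub
    (((e.D.F.bilH 1 1 _ _ (triv _ _) 0 (β2 e)).hasFDerivAt_of_bilinear
      hasFDerivAt_fst hasFDerivAt_snd).fun_add ((d.comp_hasFDerivAt_of_eq (zH hv)
        (ContinuousLinearMap.hasFDerivAt _).norm_sq n).fun_smul
        (fg _ 0 _ ∘L e.D.F.incl 1 0 (pY e) ∘L snd ℝ _ _).hasFDerivAt))
  refine ⟨_, h, fun x => ?_⟩
  simp only [Function.comp_apply (f := e.b), ← n]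
  simp [dP, zH, bil_l e.Y.dim.le (sm_β2 H), bil_r e.Y.dim.le (sm_β2 H), sp, incl_toH, fg_toH]

omit H hv in
theorem hd_line {X : Type} [NormedAddCommGroup X] [NormedSpace ℝ X] (a b : X) (t : ℝ) :
    HasDerivAt (fun r : ℝ => a + r • b) b t := by
  simpa only [one_smul, id] using ((hasDerivAt_id t).smul_const b).const_add a

theorem hd_a (hu : e.cyl.Adm (fz u)) (k : κ) (y : e.Y.M) :
    HasDerivAt (fun r => (gr (v.vr u r)).a k y) (Map77.pj ℝ k (Λ0 e y ((A1 e.D.F).app e.D.F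
      (sa hu).1 y) + (m1 v y (u.Φ y) + (deriv (deriv e.f) (hol v) * hol u) • (c1 H).1 y))) 0 := by
  have e1 : ∀ r, hol (v.vr u r) = hol v + r • hol u := fun r => by
    rw [hol_H H (adm_vr hv hu r), hol_H H hv, hol_H H hu, show sT (sa (adm_vr hv hu r)).2.1 =
      sT (sa hv).2.1 + r • sT (sa hu).2.1 from rfl, map_add, map_smul, inner_add_right,
      real_inner_smul_right, smul_eq_mul]
    ring
  have d := ((contDiff_infty_iff_deriv.1 H.sf).2.differentiable (by simp) (hol v)).hasDerivAt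
  have t := (Map77.pj ℝ k).hasFDerivAt.comp_hasDerivAt 0 ((((Λ0 e y).hasFDerivAt.comp_hasDerivAt 0
    (hd_app (A := A1 e.D.F) (F := e.D.F) (sa hv).2.1 (sa hu).2.1 y)).fun_add
    (((β1 e y).hasFDerivAt.comp_hasDerivAt 0 (hd_line (v.Φ y) (u.Φ y) 0)).clm_apply
      (hd_line (v.Φ y) (u.Φ y) 0))).fun_add (((d.comp_of_eq 0 (hd_line (hol v) (hol u) 0)
        (by simp)).smul_const ((c1 H).1 y)).const_add ((c0 H).1 y)))
  refine (t.congr_deriv (congrArg (Map77.pj ℝ k) ?_)).congr_of_eventuallyEq (.of_forall fun r => ?_)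
  · simp only [m1, zero_smul, add_zero, Function.comp_apply, add_apply, flip_apply]
    abel
  · have := congrArg (Map77.pj ℝ k) (gr_a' H (adm_vr hv hu r) y)
    rw [e1] at this
    exact this

theorem hd_P (hu : e.cyl.Adm (fz u)) (y : e.Y.M) : HasDerivAt (fun r => (gr (v.vr u r)).Φ y)
    ((A2 e).app e.D.F u.Φ y - (β2 e y ((sa hv).1 y) (u.Φ y) +
      β2 e y ((sa hu).1 y) (v.Φ y) + (e.b (nm v) • u.Φ y + (deriv e.b (nm v) *
        (2 * ⟪e.D.F.toH 0 _ (sp hv), e.D.F.toH 0 _ (sp hu)⟫_ℝ)) • v.Φ y))) 0 := by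
  have d := (H.sb.differentiable (by simp) (nm v)).hasDerivAt
  have t := (hd_app (A := A2 e) (F := e.D.F) (smΦ hv) (smΦ hu) y).fun_sub
    ((((β2 e y).hasFDerivAt.comp_hasDerivAt 0 (hd_line ((sa hv).1 y) ((sa hu).1 y) 0)).clm_apply
      (hd_line (v.Φ y) (u.Φ y) 0)).fun_add ((d.comp_of_eq 0 (hd_line (e.D.F.toH 0 _ (sp hv))
        (e.D.F.toH 0 _ (sp hu)) 0).norm_sq (by simp [nm_H hv])).fun_smul
          (hd_line (v.Φ y) (u.Φ y) 0)))
  refine (t.congr_deriv ?_).congr_of_eventuallyEq (.of_forall fun r => ?_)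
  · simp only [zero_smul, add_zero, Function.comp_apply, ← nm_H hv]
    abel
  · have := gr_P' H (adm_vr hv hu r) y
    rw [← add_assoc, ← sub_eq_iff_eq_add', nm_H (adm_vr hv hu r), show sp (adm_vr hv hu r) =
      sp hv + r • sp hu from rfl, map_add, map_smul] at this
    exact this.symm

theorem ker_sm {x : HC e} (h1 : dA v H x = 0) (h2 : dP hv x = 0) (h3 : dvH e x.1 = 0) :
    ∃ u, ∃ hu : e.cyl.Adm (fz u), zH hu = x := by
  obtain ⟨C₀, hF⟩ := tame3 e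
  obtain ⟨C₁, g1⟩ := good1 _ hF
  obtain ⟨C₂, g2⟩ := good2 H hF
  have m := fun {V W : Type} [NormedAddCommGroup V] [InnerProductSpace ℝ V] [NormedAddCommGroup W]
    [InnerProductSpace ℝ W] {p : e.Y.M → V →L[ℝ] V} {f : e.Y.M → V →L[ℝ] W} (s : Sm e.Y.I f) k =>
    incl_mulH (F := e.D.F.toPre) (p := p) (Cb_of_compact s) (Maps.triv _) (Nat.zero_le k)
  obtain ⟨⟨a, ha⟩, b, hb⟩ := lin_reg hF g1 (cliff1 _) g2 (cliff2 H) (x := x.1) (y := x.2)
    fun k x' y' hx hy => by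
      have hx := (incl_incl (by omega) zero_le_one x').symm.trans (congrArg _ hx)
      have hy := (incl_incl (by omega) zero_le_one y').symm.trans (congrArg _ hy)
      refine ⟨⟨e.D.F.mulH _ (triv _ _) _ (Λ1 e) (-(e.D.F.mulH _ _ _ (m1 v) y' +
        (?_ : ℝ) • e.D.F.toH (k + 1) _ (c1 H))), (A1_H H x.1).trans ?_⟩,
        e.D.F.mulH _ _ _ (fun y => β2 e y ((sa hv).1 y)) y' +
          e.D.F.mulH _ _ _ (fun y => (β2 e y).flip (v.Φ y)) x' + (e.b (nm v) • fg _ _ _ y' +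
          (?_ : ℝ) • e.D.F.toH (k + 1) _ (sT (smΦ hv))), (sub_eq_zero.1 h2).trans ?_⟩
      rotate_left
      · rw [h3, add_zero, eq_neg_of_add_eq_zero_left h1, m (sm_Λ1 H), map_neg (e.D.F.incl _ _ _),
          map_add (e.D.F.incl _ _ _), map_smul (e.D.F.incl _ _ _), incl_toH (by omega),
          m (sm_m1 H hv), hy]
      rotate_left
      · rw [map_add, map_add, map_add, map_smul, map_smul, incl_toH (by omega), incl_fg (by omega),
          m ((sm_β2 H).clm_apply (sa hv).2.1), m ((sm_flip (sm_β2 H)).clm_apply (smΦ hv)), hx, hy]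
  exact ⟨⟨fun k y => a.1 y k, b.1⟩, adm_fz (sm_comp a.2.1) b.2.1
    (fun k y => (Sep15.S.idx_ap ..).symm.trans (congrArg (· k) (a.2.2.2 y))) b.2.2.2,
    Prod.ext ha hb⟩

omit H hv in
theorem jS_ne (h : Gv v) : e.D.F.toH 0 _ (jS h.crit.1) ≠ 0 := fun k => by
  obtain ⟨y, hy⟩ := h.irr
  have := congrArg (fun u => e.m.J (u.1 y)) (toH_inj _ 0 _ (k.trans (map_zero _).symm))
  exact hy (neg_eq_zero.1 ((JJ h.ok.cyl _).symm.trans (this.trans (map_zero _))))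

omit H hv in
theorem ker0 (h : Gv v) {x : HC e} (h1 : dA v h.ok x = 0) (h2 : dP h.crit.1 x = 0)
    (h3 : dvH e x.1 = 0) (h4 : lH h.crit.1 x.2 = 0) : x = 0 := by
  have H := h.ok
  have hv := h.crit.1
  obtain ⟨C₀, hF⟩ := tame3 e
  obtain ⟨C₁, g1⟩ := good1 _ hF
  obtain ⟨C₂, g2⟩ := good2 H hF
  obtain ⟨u, hu, rfl⟩ := ker_sm H hv h1 h2 h3
  simp only [dA, dP, zH, incl_toH zero_le_one, fg_toH, ← hol_H H hu,
    mulH_toH ((sm_β2 H).clm_apply (sa hv).2.1), mulH_toH ((sm_flip (sm_β2 H)).clm_apply (smΦ hv)),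
    mulH_toH (sm_m1 H hv), lH, ContinuousLinearMap.comp_apply] at h1 h2 h3 h4
  rw [show (A1 e.D.F).H e.D.F 0 _ = e.D.F.toH 0 (triv _ _) _ from H_toH g1 0 _,
    mulH_toH (f := Λ0 e) (sm_Λ0 H), ← map_smul, ← map_add, ← map_add] at h1
  rw [show (A2 e).H e.D.F 0 _ = e.D.F.toH 0 (triv _ _) _ from H_toH g2 0 _, ← map_smul, ← map_smul,
    ← map_add, ← map_add, ← map_add, ← map_sub] at h2
  obtain ⟨χ, s, k1, k2⟩ := h.nd u hu (fun k y => (hd_a H hv hu k y).congr_deriv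
    (congrArg (·.1 y k) (toH_inj _ 0 _ (h1.trans (map_zero _).symm))))
    fun y => (hd_P H hv hu y).congr_deriv
      (congrArg (·.1 y) (toH_inj _ 0 _ (h2.trans (map_zero _).symm)))
  have k3 : dS e.D.F s.neg = sa hu := Subtype.ext (funext fun y => PiLp.ext fun k =>
    (dv_neg ..).trans (k1 k y).symm)
  have k4 := coex s.neg (k3 ▸ (dvH_toH _).1 h3)
  obtain ⟨y₀⟩ : Nonempty e.Y.M := inferInstance
  have k5 : sT (sp hu).2.1 = χ y₀ • jS hv := Subtype.ext (funext fun y => (k2 y).trans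
    (congrArg (· • _) (neg_injective (Sep15.S.const_of_D _ s.neg k4 y y₀))))
  rw [k5, map_smul, innerSL_apply_apply, real_inner_smul_right, mul_eq_zero, inner_self_eq_zero,
    or_iff_left (jS_ne h)] at h4
  rw [h4, zero_smul] at k5
  rw [zH, ← k3, show dS e.D.F s.neg = 0 from Subtype.ext (funext fun y => PiLp.ext (k4 · y)),
    show sp hu = 0 from Subtype.ext (congrArg (·.1) k5), map_zero, map_zero]
  rfl

theorem est0 {g : HC e → ℝ} (h1 : dA v H =O[⊤] g) (h2 : dP hv =O[⊤] g)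
    (h3 : (fun x => dvH e x.1) =O[⊤] g) (k1 : (fun x => e.D.F.incl 1 0 _ x.1) =O[⊤] g)
    (k2 : (fun x => e.D.F.incl 1 0 _ x.2) =O[⊤] g) : (fun x => x) =O[⊤] g := by
  obtain ⟨C₀, hF⟩ := tame3 e
  obtain ⟨C₁, g1⟩ := good1 _ hF
  obtain ⟨C₂, g2⟩ := good2 H hF
  obtain ⟨K₁, G₁⟩ := gard hF g1 (cliff1 _) 0
  obtain ⟨K₂, G₂⟩ := gard hF g2 (cliff2 H) 0
  have cl : ∀ {X Y : Type} [NormedAddCommGroup X] [NormedSpace ℝ X] [NormedAddCommGroup Y]
      [NormedSpace ℝ Y] (L : X →L[ℝ] Y) {f : HC e → X}, f =O[⊤] g → (fun x => L (f x)) =O[⊤] g :=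
    fun L _ k => (L.isBigO_comp _ _).trans k
  have sm : ∀ {X Y : Type} [NormedAddCommGroup X] [InnerProductSpace ℝ X] [NormedAddCommGroup Y]
      [NormedSpace ℝ Y] (r : ℝ) (a : X) (b : Y) {f : HC e → X}, f =O[⊤] g →
      (fun x => (r * (2 * ⟪a, f x⟫_ℝ)) • b) =O[⊤] g := fun r a b _ k =>
    cl (toSpanSingleton ℝ b) (((cl (innerSL ℝ a) k).const_mul_left 2).const_mul_left r)
  refine IsBigO.prod_left (est_O G₁ (x := Prod.fst) (((cl (e.D.F.mulH 0 (triv _ _) _ (Λ1 e))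
    (h1.sub ((cl (e.D.F.mulH 0 _ _ (m1 v)) k2).add (sm (deriv (deriv e.f) (hol v))
      (e.D.F.toH 0 _ (c1 H)) (e.D.F.toH 0 _ (c1 H)) (cl (fg _ 0 _) k1))))).add h3).congr_left
      fun x => ?_) k1) (est_O G₂ (x := Prod.snd) ((h2.add
      (((cl (e.D.F.mulH 0 _ _ fun y => β2 e y ((sa hv).1 y)) k2).add
        (cl (e.D.F.mulH 0 _ _ fun y => (β2 e y).flip (v.Φ y)) k1)).add
        (((cl (fg _ 0 _) k2).const_smul_left (e.b (nm v))).add (sm (deriv e.b (nm v))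
          (e.D.F.toH 0 _ (sp hv)) (e.D.F.toH 0 _ (sT (smΦ hv))) k2)))).congr_left
      fun x => sub_add_cancel _ _) k2)
  rw [dA, add_sub_cancel_right, ← A1_H H]

omit H hv in
theorem low_abs {X₁ X₂ Y₁ Y₂ Y₃ Z₁ Z₂ : Type} [NormedAddCommGroup X₁] [NormedSpace ℝ X₁]
    [NormedAddCommGroup X₂] [NormedSpace ℝ X₂] [NormedAddCommGroup Y₁] [NormedSpace ℝ Y₁]
    [NormedAddCommGroup Y₂] [NormedSpace ℝ Y₂] [NormedAddCommGroup Y₃] [NormedSpace ℝ Y₃]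
    [NormedAddCommGroup Z₁] [NormedSpace ℝ Z₁] [NormedAddCommGroup Z₂] [NormedSpace ℝ Z₂]
    [CompleteSpace X₁] [CompleteSpace X₂] {A : X₁ × X₂ →L[ℝ] Y₁} {P : X₁ × X₂ →L[ℝ] Y₂}
    {D : X₁ →L[ℝ] Y₃} {l : X₂ →L[ℝ] ℝ} {j₁ : X₁ →L[ℝ] Z₁} {j₂ : X₂ →L[ℝ] Z₂}
    (c1 : IsCompactOperator j₁) (c2 : IsCompactOperator j₂)
    (h : ∀ g : X₁ × X₂ → ℝ, A =O[⊤] g → P =O[⊤] g → (fun x => D x.1) =O[⊤] g →
      (fun x => j₁ x.1) =O[⊤] g → (fun x => j₂ x.2) =O[⊤] g → (fun x => x) =O[⊤] g)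
    (k : ∀ x, A x = 0 → P x = 0 → D x.1 = 0 → l x.2 = 0 → x = 0) :
    ∃ c > 0, ∀ x : X₁ × X₂, D x.1 = 0 → l x.2 = 0 → ‖x‖ ≤ c * ‖A.prod P x‖ := by
  let T := (A.prod P).prod ((D ∘L fst ℝ _ _).prod (l ∘L snd ℝ _ _))
  let K := inl ℝ _ _ ∘L j₁ ∘L fst ℝ _ _ + inr ℝ _ _ ∘L j₂ ∘L snd ℝ _ _
  have hT : T =O[⊤] fun x => ‖T x‖ + ‖K x‖ := .of_bound' (.of_forall fun x =>
    (le_add_of_nonneg_right (norm_nonneg _)).trans (le_abs_self _))
  have hK : K =O[⊤] fun x => ‖T x‖ + ‖K x‖ := .of_bound' (.of_forall fun x =>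
    (le_add_of_nonneg_left (norm_nonneg _)).trans (le_abs_self _))
  obtain ⟨C, hC⟩ := isBigO_top.1 (h _ hT.prod_left_fst.prod_left_fst hT.prod_left_fst.prod_left_snd
    hT.prod_left_snd.prod_left_fst (hK.prod_left_fst.congr_left fun x => add_zero _)
    (hK.prod_left_snd.congr_left fun x => zero_add _))
  obtain ⟨c, hc, hb⟩ := Fred93.Est.bound_of_inj (L := T) (K := K) (C := C)
    (fun x => (hC x).trans_eq (congrArg _ (Real.norm_of_nonneg (by positivity))))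
    (((c1.comp_clm (fst ℝ X₁ X₂)).clm_comp (inl ℝ Z₁ Z₂)).add
      ((c2.comp_clm (snd ℝ X₁ X₂)).clm_comp (inr ℝ Z₁ Z₂)))
    ((injective_iff_map_eq_zero T).2 fun x hx => k x (congrArg (·.1.1) hx)
      (congrArg (·.1.2) hx) (congrArg (·.2.1) hx) (congrArg (·.2.2) hx))
  exact ⟨c, hc, fun x a b => (hb x).trans_eq (by simp [T, a, b, Prod.norm_def])⟩

omit H hv in
/-- **the Hessian is bounded below on the slice** -/
theorem slice (h : Gv v) : ∃ G' : HC e →L[ℝ] _ × _, HasFDerivAt (fun z => (GA h.ok z, GP z)) G'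
    (zH h.crit.1) ∧ ∃ c > 0, ∀ x, dvH e x.1 = 0 → lH h.crit.1 x.2 = 0 → ‖x‖ ≤ c * ‖G' x‖ :=
  let ⟨A', d1, eA⟩ := fGA h.ok h.crit.1
  let ⟨P', d2, eP⟩ := fGP h.ok h.crit.1
  ⟨A'.prod P', d1.prodMk d2, low_abs (Cht98.rellich zero_lt_one) (Cht98.rellich zero_lt_one)
    (fun _ a b => est0 h.ok h.crit.1 (a.congr_left eA) (b.congr_left eP))
    fun x a b => ker0 h ((eA x).symm.trans a) ((eP x).symm.trans b)⟩

end Crest.Agent.X212.Dec47
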