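import Crest.Agent.X212.Dec47.Gap
import Crest.Agent.X212.Mcg32.DecM
import Crest.Agent.X212.Wd45.Main
import Crest.Agent.X212.Lw78.Main
import Crest.Agent.X212.Lw78.Int
import Crest.Agent.X212.Lw78.Hi
set_option autoImplicit false
namespace Crest.Agent.X212.Dec47
variable {κ lam ν : Type} [Fintype κ] [Fintype lam] [Fintype ν] [DecidableEq ν]
theorem dec1 : Sep15.S.Dec1 κ lam ν :=
  Mcg32.Dec.dec1 Dl42.dl (loj Dl42.dx) (Wd45.wd (Lw78.locw Dl42.dl) gap Lw78.hi Lw78.int)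
theorem dec : Sw.DecStmt κ lam ν := dec1.dec
end Crest.Agent.X212.Dec47
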